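/-
P235-LL (helper536), leaf INIT: the start domains.  `r r'` is an edge of the plane graph `G` without
cut vertices, `U` a component of `G - {r, r'}`, the pieces are `{r}` and `{r'}`, `w = 0`.
-/
import Vale.Agent.P235.LL.H834.TG
import Vale.Agent.P235.H555.Minor
import Vale.Agent.P235.Comp.Core

set_option linter.all false
set_option autoImplicit false

namespace Vale.Agent.P235.LL.H536

open SimpleGraph Vale.Agent.P235

variable {V : Type} {G : SimpleGraph V}

/-- `U` is (the vertex set of) a component of `G - {r, r'}` -/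
structure Start (G : SimpleGraph V) (r r' : V) (U : Set V) : Prop where
  conn : (G.induce U).Connected
  nr : r ∉ U
  nr' : r' ∉ U
  cl : ∀ u ∈ U, ∀ b, G.Adj u b → b ∈ U ∨ b = r ∨ b = r'

theorem Start.symm {r r' : V} {U : Set V} (h : Start G r r' U) : Start G r' r U :=
  ⟨h.conn, h.nr', h.nr, fun u hu b hb => (h.cl u hu b hb).imp_right Or.symm⟩

/-- the components of `G - {r, r'}` are such sets -/
theorem start_comp {r r' x : V} (hx : x ∉ ({r, r'} : Set V)) :
    Start G r r' (compSet G {r, r'} x) := by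
  refine ⟨comp_connected hx, fun h => (ReachOff.right h) (Or.inl rfl),
    fun h => (ReachOff.right h) (Or.inr rfl), fun u hu b hb => ?_⟩
  by_cases h : b ∈ ({r, r'} : Set V)
  · exact Or.inr h
  · exact Or.inl (ReachOff.trans hu (ReachOff.adj (ReachOff.right hu) h hb))

/-- `r` has a neighbour in `U` -/
theorem Start.nb {r r' : V} {U : Set V} (h : Start G r r' U) (hne : r ≠ r')
    (h2 : (G.induce {x | x ≠ r'}).Connected) : ∃ u ∈ U, G.Adj u r := by
  classical
  obtain ⟨⟨u, hu⟩⟩ := h.conn.nonempty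
  have hu' : u ≠ r' := fun e => h.nr' (e ▸ hu)
  obtain ⟨p⟩ := h2.preconnected ⟨u, hu'⟩ ⟨r, hne⟩
  obtain ⟨d, -, hd1, hd2⟩ := p.exists_boundary_dart {x | (x : V) ∈ U} hu h.nr
  have hadj : G.Adj d.fst.1 d.snd.1 := d.adj
  rcases h.cl _ hd1 _ hadj with h1 | h1 | h1
  · exact absurd h1 hd2
  · exact ⟨d.fst.1, hd1, h1 ▸ hadj⟩
  · exact absurd h1 d.snd.2

/-- `T(U, {r})` is connected -/
theorem Start.tg_connected {r r' : V} {U : Set V} (h : Start G r r' U) (hrr : G.Adj r r')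
    (h2 : ∃ u ∈ U, G.Adj u r) (w : V → ℝ) : (TG G U {r} w).Connected := by
  classical
  obtain ⟨u, hu, hur⟩ := h2
  let f : (G.induce U) →g (TG G U {r} w) :=
    ⟨fun x => some ⟨x.1, Or.inl x.2⟩, fun {a b} hab =>
      ⟨fun e => (show G.Adj a.1 b.1 from hab).ne e, Or.inl ⟨hab, Or.inl a.2⟩⟩⟩
  have hr1 : (TG G U {r} w).Adj (some ⟨u, Or.inl hu⟩) (some ⟨r, Or.inr rfl⟩) :=
    ⟨hur.ne, Or.inl ⟨hur, Or.inl hu⟩⟩
  have hr2 : (TG G U {r} w).Adj none (some ⟨r, Or.inr rfl⟩) := by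
    refine Or.inl ⟨rfl, fun c hc => ?_⟩
    rw [Set.mem_singleton_iff.1 hc]
  have key : ∀ x, (TG G U {r} w).Reachable (some ⟨u, Or.inl hu⟩) x := by
    rintro (_ | ⟨x, hx | hx⟩)
    · exact hr1.reachable.trans hr2.symm.reachable
    · exact (h.conn.preconnected ⟨u, hu⟩ ⟨x, hx⟩).map f
    · obtain rfl := Set.mem_singleton_iff.1 hx
      exact hr1.reachable
  rw [SimpleGraph.connected_iff]
  exact ⟨fun x y => (key x).symm.trans (key y), ⟨none⟩⟩

/-- `T(U, {r})` is plane -/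
theorem Start.tg_plane [Finite V] (hc : G.Connected)
    (hP : ∃ σ : Equiv.Perm G.Dart, PlaneMap G σ) {r r' : V} {U : Set V} (h : Start G r r' U)
    (hrr : G.Adj r r') (h2 : ∃ u ∈ U, G.Adj u r) (w : V → ℝ) :
    ∃ σ : Equiv.Perm (TG G U {r} w).Dart, PlaneMap (TG G U {r} w) σ := by
  classical
  have hcard : 2 ≤ Nat.card (Option {v : V // v ∈ U ∨ v ∈ ({r} : Set V)}) := by
    have : Nontrivial (Option {v : V // v ∈ U ∨ v ∈ ({r} : Set V)}) :=
      ⟨⟨none, some ⟨r, Or.inr rfl⟩, by simp⟩⟩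
    exact Finite.one_lt_card
  let f : Option {v : V // v ∈ U ∨ v ∈ ({r} : Set V)} → V := fun x => x.elim r' fun y => y.1
  have hne : ∀ y : {v : V // v ∈ U ∨ v ∈ ({r} : Set V)}, (y : V) ≠ r' := by
    rintro ⟨y, hy | hy⟩ e
    · exact h.nr' ((show y = r' from e) ▸ hy)
    · exact hrr.ne ((Set.mem_singleton_iff.1 hy).symm.trans e)
  have hz : ∀ v : V, TZ G U {r} w v → G.Adj v r' := by
    rintro v (⟨h1, -⟩ | ⟨h1, -⟩ | ⟨h1, b, hb1, hb2, hb3⟩)
    · rw [Set.mem_singleton_iff.1 h1]; exact hrr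
    · rw [Set.mem_singleton_iff.1 h1]; exact hrr
    · rcases h.cl v h1 b hb3 with h4 | h4 | h4
      · exact absurd h4 hb1
      · exact absurd h4 hb2
      · rw [← h4]; exact hb3
  have hcons : ∀ a b : V, ¬ ConsIn {r} w a b := by
    rintro a b ⟨h1, h2, h3, -⟩
    rw [Set.mem_singleton_iff.1 h1, Set.mem_singleton_iff.1 h2] at h3
    exact lt_irrefl _ h3
  refine Vale.Agent.P235.H555.pl_of_emb hc (h.tg_connected hrr h2 w) hcard f ?_ ?_ hP
  · rintro (_ | a) (_ | b) hab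
    · rfl
    · exact absurd hab.symm (hne b)
    · exact absurd hab (hne a)
    · exact congrArg some (Subtype.ext hab)
  · rintro (_ | a) (_ | b) hab
    · exact hab.elim
    · exact (hz _ hab).symm
    · exact hz _ hab
    · obtain ⟨-, ⟨h1, -⟩ | h1 | h1⟩ := hab
      · exact h1
      · exact absurd h1 (hcons _ _)
      · exact absurd h1 (hcons _ _)

/-- **INIT**: everything about the start domains -/
theorem init [Finite V] (hc : G.Connected) (hP : ∃ σ : Equiv.Perm G.Dart, PlaneMap G σ)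
    (hcut : ∀ v, (G.induce {x | x ≠ v}).Connected) {r r' : V} (hrr : G.Adj r r') :
    (∀ x, x ≠ r → x ≠ r' → ∃ U, Start G r r' U ∧ x ∈ U) ∧
    (∀ U U' : Set V, Start G r r' U → Start G r r' U' → ∀ x ∈ U, x ∈ U' → U = U') ∧
    ∀ U : Set V, Start G r r' U →
      (∃ u ∈ U, G.Adj u r) ∧ (∃ u ∈ U, G.Adj u r') ∧
      (∀ b, b ∉ U → (∃ u ∈ U, G.Adj u b) → b = r ∨ b = r') ∧
      (∀ w : V → ℝ, (TG G U {r} w).Connected ∧
        ∃ σ : Equiv.Perm (TG G U {r} w).Dart, PlaneMap (TG G U {r} w) σ) ∧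
      ∀ w : V → ℝ, (TG G U {r'} w).Connected ∧
        ∃ σ : Equiv.Perm (TG G U {r'} w).Dart, PlaneMap (TG G U {r'} w) σ := by
  refine ⟨fun x hx hx' => ?_, ?_, fun U h => ?_⟩
  · have h0 : x ∉ ({r, r'} : Set V) := fun h => h.elim hx hx'
    exact ⟨_, start_comp h0, ReachOff.refl h0⟩
  · have key : ∀ U U' : Set V, Start G r r' U → Start G r r' U' → ∀ x ∈ U, x ∈ U' → U ⊆ U' := by
      intro U U' h h' x hx hx' y hy
      obtain ⟨p⟩ := h.conn.preconnected ⟨x, hx⟩ ⟨y, hy⟩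
      by_contra hy'
      obtain ⟨d, -, hd1, hd2⟩ := p.exists_boundary_dart {z | (z : V) ∈ U'} hx' hy'
      have hadj : G.Adj d.fst.1 d.snd.1 := d.adj
      rcases h'.cl _ hd1 _ hadj with h1 | h1 | h1
      · exact hd2 h1
      · exact h.nr (h1 ▸ d.snd.2)
      · exact h.nr' (h1 ▸ d.snd.2)
    exact fun U U' h h' x hx hx' =>
      Set.Subset.antisymm (key U U' h h' x hx hx') (key U' U h' h x hx' hx)
  · have n1 := h.nb hrr.ne (hcut r')
    have n2 := h.symm.nb hrr.ne.symm (hcut r)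
    refine ⟨n1, n2, fun b hb ⟨u, hu, hub⟩ => (h.cl u hu b hub).resolve_left hb, fun w => ?_,
      fun w => ?_⟩
    · exact ⟨h.tg_connected hrr n1 w, h.tg_plane hc hP hrr n1 w⟩
    · exact ⟨h.symm.tg_connected hrr.symm n2 w, h.symm.tg_plane hc hP hrr.symm n2 w⟩

end Vale.Agent.P235.LL.H536
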